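import Mathlib

/-!
# P179: extension of Hasse–Schmidt derivations along separable extensions (general form)

`ι : A → B` algebras over a commutative ring `k`, `∑ s i ⊗ r i` a separability element of `B`
over `A`, `φ : A → B⟦X⟧` any map and `Φ : B → B⟦X⟧` a linear map with constant term the
identity, `Φ 1 = 1`, which is `φ`-semilinear on both sides.  Then there is an algebra map
`G : B → B⟦X⟧` with constant term the identity and `G (ι h) = φ h`.

Newton's iteration: `D (a, b) = g (a b) - g a * g b`, `g' a = g a + ∑ D (a, s i) * g (r i)`; then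
`D' (a, b) = D (a, b) * ∑ D (s i, r i) + ∑ D (a, s i) * D (r i, b) - h a * h b`.
-/

namespace Vale.P179.H930.S1G

open scoped TensorProduct PowerSeries

noncomputable section

section General

variable {k A B : Type*} [CommRing k] [Ring A] [Algebra k A] [Ring B] [Algebra k B]

/-- a separability element -/
structure Sep (ι : A →ₐ[k] B) {m : ℕ} (s r : Fin m → B) : Prop where
  one : ∑ i, s i * r i = 1
  cen : ∀ b : B, (∑ i, (b * s i) ⊗ₜ[k] r i) - (∑ i, s i ⊗ₜ[k] (r i * b)) ∈
    Submodule.span k {z : B ⊗[k] B | ∃ (x y : B) (h : A), z = (x * ι h) ⊗ₜ[k] y - x ⊗ₜ[k] (ι h * y)}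

/-- balanced bilinear maps are central on a separability element -/
theorem Sep.apply {ι : A →ₐ[k] B} {m : ℕ} {s r : Fin m → B} (hS : Sep ι s r) {C : Type*}
    [AddCommGroup C] [Module k C] (F : B →ₗ[k] B →ₗ[k] C)
    (hF : ∀ (x y : B) (h : A), F (x * ι h) y = F x (ι h * y)) (b : B) :
    ∑ i, F (b * s i) (r i) = ∑ i, F (s i) (r i * b) := by
  have h1 : ∀ z ∈ Submodule.span k {z : B ⊗[k] B | ∃ (x y : B) (h : A),
      z = (x * ι h) ⊗ₜ[k] y - x ⊗ₜ[k] (ι h * y)}, TensorProduct.lift F z = 0 := by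
    intro z hz
    induction hz using Submodule.span_induction with
    | mem z hz =>
      obtain ⟨x, y, h, rfl⟩ := hz
      rw [map_sub, TensorProduct.lift.tmul, TensorProduct.lift.tmul, hF, sub_self]
    | zero => exact map_zero _
    | add x y _ _ hx hy => rw [map_add, hx, hy, add_zero]
    | smul c x _ hx => rw [map_smul, hx, smul_zero]
  have h2 := h1 _ (hS.cen b)
  rw [map_sub, map_sum, map_sum, sub_eq_zero] at h2
  simpa only [TensorProduct.lift.tmul] using h2

variable (ι : A →ₐ[k] B) (φ : A → B⟦X⟧)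

/-- a `φ`-semilinear map -/
structure SL (g : B →ₗ[k] B⟦X⟧) : Prop where
  one : g 1 = 1
  left : ∀ h b, g (ι h * b) = φ h * g b
  right : ∀ h b, g (b * ι h) = g b * φ h

variable {ι φ}

/-- the defect of multiplicativity -/
def df (g : B →ₗ[k] B⟦X⟧) (a b : B) : B⟦X⟧ := g (a * b) - g a * g b

/-- the defect as a bilinear map -/
def dfL (g : B →ₗ[k] B⟦X⟧) : B →ₗ[k] B →ₗ[k] B⟦X⟧ :=
  (LinearMap.mul k B).compr₂ g - (LinearMap.mul k B⟦X⟧).compl₁₂ g g

theorem dfL_apply (g : B →ₗ[k] B⟦X⟧) (a b : B) : dfL g a b = df g a b := rfl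

/-- the correction -/
def cor {m : ℕ} (s r : Fin m → B) (g : B →ₗ[k] B⟦X⟧) : B →ₗ[k] B⟦X⟧ :=
  ∑ i, (LinearMap.mul k B⟦X⟧).flip (g (r i)) ∘ₗ (dfL g).flip (s i)

theorem cor_apply {m : ℕ} (s r : Fin m → B) (g : B →ₗ[k] B⟦X⟧) (a : B) :
    cor s r g a = ∑ i, df g a (s i) * g (r i) := by
  simp [cor, dfL_apply]

/-- one step of the iteration -/
def nxt {m : ℕ} (s r : Fin m → B) (g : B →ₗ[k] B⟦X⟧) : B →ₗ[k] B⟦X⟧ := g + cor s r g

theorem nxt_apply {m : ℕ} (s r : Fin m → B) (g : B →ₗ[k] B⟦X⟧) (a : B) :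
    nxt s r g a = g a + ∑ i, df g a (s i) * g (r i) := by
  rw [nxt, LinearMap.add_apply, cor_apply]

theorem SL.df_right {g : B →ₗ[k] B⟦X⟧} (hg : SL ι φ g) (a x : B) (h : A) :
    df g a (x * ι h) = df g a x * φ h := by
  rw [df, df, ← mul_assoc, hg.right, hg.right, sub_mul, mul_assoc]

theorem SL.df_left {g : B →ₗ[k] B⟦X⟧} (hg : SL ι φ g) (a x : B) (h : A) :
    df g (ι h * a) x = φ h * df g a x := by
  rw [df, df, mul_assoc, hg.left, hg.left, mul_sub, mul_assoc]

theorem SL.df_mid {g : B →ₗ[k] B⟦X⟧} (hg : SL ι φ g) (a x : B) (h : A) :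
    df g (a * ι h) x = df g a (ι h * x) := by
  rw [df, df, hg.right, hg.left, mul_assoc, mul_assoc]

/-- centrality for the balanced map `(x, y) ↦ D (a, x) * g y` -/
theorem SL.cen {g : B →ₗ[k] B⟦X⟧} (hg : SL ι φ g) {m : ℕ} {s r : Fin m → B} (hS : Sep ι s r)
    (a b : B) : ∑ i, df g a (b * s i) * g (r i) = ∑ i, df g a (s i) * g (r i * b) := by
  have := hS.apply ((LinearMap.mul k B⟦X⟧).compl₁₂ (dfL g a) g) (by
    intro x y h
    simp only [LinearMap.compl₁₂_apply, LinearMap.mul_apply', dfL_apply]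
    rw [hg.df_right, hg.left, mul_assoc]) b
  simpa only [LinearMap.compl₁₂_apply, LinearMap.mul_apply', dfL_apply] using this

theorem SL.nxtSL {g : B →ₗ[k] B⟦X⟧} (hg : SL ι φ g) {m : ℕ} {s r : Fin m → B}
    (hS : Sep ι s r) : SL ι φ (nxt s r g) where
  one := by
    rw [nxt_apply, hg.one]
    have : ∀ i, df g 1 (s i) * g (r i) = 0 := by
      intro i
      rw [df, one_mul, hg.one, one_mul, sub_self, zero_mul]
    rw [Finset.sum_eq_zero fun i _ => this i, add_zero]
  left := by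
    intro h b
    rw [nxt_apply, nxt_apply, hg.left, mul_add, Finset.mul_sum]
    congr 1
    refine Finset.sum_congr rfl fun i _ => ?_
    rw [hg.df_left, mul_assoc]
  right := by
    intro h b
    rw [nxt_apply, nxt_apply, hg.right, add_mul, Finset.sum_mul]
    congr 1
    have h1 : ∀ i, df g (b * ι h) (s i) * g (r i) = df g b (ι h * s i) * g (r i) := by
      intro i
      rw [hg.df_mid]
    rw [Finset.sum_congr rfl fun i _ => h1 i, hg.cen hS]
    refine Finset.sum_congr rfl fun i _ => ?_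
    rw [hg.right, mul_assoc]

/-- the defect after one step is quadratic in the defect -/
theorem SL.df_nxt {g : B →ₗ[k] B⟦X⟧} (hg : SL ι φ g) {m : ℕ} {s r : Fin m → B}
    (hS : Sep ι s r) (a b : B) :
    df (nxt s r g) a b = df g a b * ∑ i, df g (s i) (r i)
      + ∑ i, df g a (s i) * df g (r i) b - cor s r g a * cor s r g b := by
  have e1 : ∀ x y, g (x * y) = df g x y + g x * g y := by
    intro x y
    rw [df, sub_add_cancel]
  -- `h a * g b`
  have e2 : cor s r g a * g b = cor s r g (a * b) + df g a b * (1 - ∑ i, df g (s i) (r i))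
      - g a * cor s r g b - ∑ i, df g a (s i) * df g (r i) b := by
    have f1 : cor s r g a * g b
        = ∑ i, df g a (s i) * g (r i * b) - ∑ i, df g a (s i) * df g (r i) b := by
      rw [cor_apply, Finset.sum_mul, ← Finset.sum_sub_distrib]
      refine Finset.sum_congr rfl fun i _ => ?_
      rw [e1 (r i) b]
      noncomm_ring
    have f2 : ∀ i, df g a (b * s i)
        = df g (a * b) (s i) + df g a b * g (s i) - g a * df g b (s i) := by
      intro i
      simp only [df, ← mul_assoc]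
      noncomm_ring
    have f3 : ∑ i, g (s i) * g (r i) = 1 - ∑ i, df g (s i) (r i) := by
      have : ∀ i, g (s i) * g (r i) = g (s i * r i) - df g (s i) (r i) := by
        intro i
        rw [df, sub_sub_cancel]
      rw [Finset.sum_congr rfl fun i _ => this i, Finset.sum_sub_distrib, ← map_sum, hS.one,
        hg.one]
    have f4 : ∑ i, df g a (b * s i) * g (r i)
        = cor s r g (a * b) + df g a b * ∑ i, g (s i) * g (r i) - g a * cor s r g b := by
      rw [cor_apply, cor_apply, Finset.mul_sum, Finset.mul_sum, ← Finset.sum_add_distrib,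
        ← Finset.sum_sub_distrib]
      refine Finset.sum_congr rfl fun i _ => ?_
      rw [f2]
      noncomm_ring
    rw [f1, ← hg.cen hS, f4, f3]
  have e3 : df (nxt s r g) a b
      = df g a b + cor s r g (a * b) - g a * cor s r g b - cor s r g a * g b
        - cor s r g a * cor s r g b := by
    simp only [df, nxt, LinearMap.add_apply]
    noncomm_ring
  rw [e3, e2]
  noncomm_ring

/-- divisible by `X ^ n` -/
def Ord (n : ℕ) (f : B⟦X⟧) : Prop := ∀ i < n, PowerSeries.coeff i f = 0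

theorem Ord.mono {n m : ℕ} (h : n ≤ m) {f : B⟦X⟧} (hf : Ord m f) : Ord n f :=
  fun i hi => hf i (lt_of_lt_of_le hi h)

theorem Ord.add {n : ℕ} {f g : B⟦X⟧} (hf : Ord n f) (hg : Ord n g) : Ord n (f + g) := by
  intro i hi
  rw [map_add, hf i hi, hg i hi, add_zero]

theorem Ord.sub {n : ℕ} {f g : B⟦X⟧} (hf : Ord n f) (hg : Ord n g) : Ord n (f - g) := by
  intro i hi
  rw [map_sub, hf i hi, hg i hi, sub_zero]

theorem Ord.sum {n : ℕ} {κ : Type*} (t : Finset κ) {f : κ → B⟦X⟧} (hf : ∀ i ∈ t, Ord n (f i)) :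
    Ord n (∑ i ∈ t, f i) := by
  intro i hi
  rw [map_sum]
  exact Finset.sum_eq_zero fun j hj => hf j hj i hi

theorem Ord.mul {n m : ℕ} {f g : B⟦X⟧} (hf : Ord n f) (hg : Ord m g) : Ord (n + m) (f * g) := by
  intro i hi
  rw [PowerSeries.coeff_mul]
  refine Finset.sum_eq_zero fun x hx => ?_
  rw [Finset.HasAntidiagonal.mem_antidiagonal] at hx
  by_cases h : x.1 < n
  · rw [hf _ h, zero_mul]
  · rw [hg x.2 (by omega), mul_zero]

theorem Ord.mul_right {n : ℕ} {f : B⟦X⟧} (hf : Ord n f) (g : B⟦X⟧) : Ord n (f * g) := by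
  have : Ord 0 g := fun i hi => absurd hi (Nat.not_lt_zero i)
  simpa using hf.mul this

/-- the iteration -/
def sq {m : ℕ} (s r : Fin m → B) (Φ : B →ₗ[k] B⟦X⟧) : ℕ → B →ₗ[k] B⟦X⟧
  | 0 => Φ
  | n + 1 => nxt s r (sq s r Φ n)

variable {m : ℕ} {s r : Fin m → B} {Φ : B →ₗ[k] B⟦X⟧}

theorem sq_SL (hS : Sep ι s r) (hΦ : SL ι φ Φ) : ∀ n, SL ι φ (sq s r Φ n)
  | 0 => hΦ
  | n + 1 => (sq_SL hS hΦ n).nxtSL hS

theorem ord_df (hS : Sep ι s r) (hΦ : SL ι φ Φ)
    (h0 : ∀ b, PowerSeries.coeff 0 (Φ b) = b) : ∀ n a b, Ord (2 ^ n) (df (sq s r Φ n) a b)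
  | 0, a, b => by
    intro i hi
    have : i = 0 := by simpa using hi
    subst this
    have h1 : ∀ f g : B⟦X⟧, PowerSeries.coeff 0 (f * g)
        = PowerSeries.coeff 0 f * PowerSeries.coeff 0 g := by
      intro f g
      simp only [PowerSeries.coeff_zero_eq_constantCoeff, map_mul]
    rw [sq, df, map_sub, h1, h0, h0, h0, sub_self]
  | n + 1, a, b => by
    have ih := ord_df hS hΦ h0 n
    rw [sq, (sq_SL hS hΦ n).df_nxt hS, pow_succ, mul_two]
    have hc : ∀ a, Ord (2 ^ n) (cor s r (sq s r Φ n) a) := by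
      intro a
      rw [cor_apply]
      exact Ord.sum _ fun i _ => (ih _ _).mul_right _
    exact (((ih a b).mul (Ord.sum _ fun i _ => ih _ _)).add
      (Ord.sum _ fun i _ => (ih _ _).mul (ih _ _))).sub ((hc a).mul (hc b))

theorem coeff_sq (hS : Sep ι s r) (hΦ : SL ι φ Φ) (h0 : ∀ b, PowerSeries.coeff 0 (Φ b) = b)
    (b : B) (i : ℕ) : ∀ n, PowerSeries.coeff i (sq s r Φ (i + n) b)
      = PowerSeries.coeff i (sq s r Φ i b)
  | 0 => rfl
  | n + 1 => by
    rw [← add_assoc, sq, nxt, LinearMap.add_apply, map_add, coeff_sq hS hΦ h0 b i n]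
    have : Ord (2 ^ (i + n)) (cor s r (sq s r Φ (i + n)) b) := by
      rw [cor_apply]
      exact Ord.sum _ fun j _ => (ord_df hS hΦ h0 (i + n) _ _).mul_right _
    have hlt : i < 2 ^ (i + n) := lt_of_le_of_lt (Nat.le_add_right i n) Nat.lt_two_pow_self
    rw [this i hlt, add_zero]

theorem coeff_sq' (hS : Sep ι s r) (hΦ : SL ι φ Φ) (h0 : ∀ b, PowerSeries.coeff 0 (Φ b) = b)
    (b : B) {i n : ℕ} (hin : i ≤ n) : PowerSeries.coeff i (sq s r Φ n b)
      = PowerSeries.coeff i (sq s r Φ i b) := by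
  obtain ⟨j, rfl⟩ := Nat.exists_eq_add_of_le hin
  exact coeff_sq hS hΦ h0 b i j

/-- **General extension theorem.** -/
theorem exists_algHom (hS : Sep ι s r) (hΦ : SL ι φ Φ)
    (h0 : ∀ b, PowerSeries.coeff 0 (Φ b) = b) :
    ∃ G : B →ₐ[k] B⟦X⟧, (∀ b, PowerSeries.coeff 0 (G b) = b) ∧ ∀ h, G (ι h) = φ h := by
  let G₀ : B →ₗ[k] B⟦X⟧ :=
    { toFun := fun b => PowerSeries.mk fun i => PowerSeries.coeff i (sq s r Φ i b)
      map_add' := by
        intro x y
        ext i
        simp [PowerSeries.coeff_mk]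
      map_smul' := by
        intro c x
        ext i
        simp [PowerSeries.coeff_mk] }
  have hG : ∀ (b : B) (i : ℕ),
      PowerSeries.coeff i (G₀ b) = PowerSeries.coeff i (sq s r Φ i b) := by
    intro b i
    change PowerSeries.coeff i (PowerSeries.mk fun i => PowerSeries.coeff i (sq s r Φ i b)) = _
    rw [PowerSeries.coeff_mk]
  have hG' : ∀ (b : B) (i n : ℕ), i ≤ n → PowerSeries.coeff i (G₀ b) = PowerSeries.coeff i (sq s r Φ n b) := by
    intro b i n hin
    rw [hG, coeff_sq' hS hΦ h0 b hin]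
  have hone : G₀ 1 = 1 := by
    ext i
    rw [hG, (sq_SL hS hΦ i).one]
  have hmul : ∀ a b, G₀ (a * b) = G₀ a * G₀ b := by
    intro a b
    ext n
    rw [hG, PowerSeries.coeff_mul]
    have h1 : PowerSeries.coeff n (df (sq s r Φ n) a b) = 0 :=
      ord_df hS hΦ h0 n a b n Nat.lt_two_pow_self
    rw [df, map_sub, sub_eq_zero, PowerSeries.coeff_mul] at h1
    rw [h1]
    refine Finset.sum_congr rfl fun x hx => ?_
    rw [Finset.HasAntidiagonal.mem_antidiagonal] at hx
    rw [hG' a x.1 n (by omega), hG' b x.2 n (by omega)]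
  refine ⟨AlgHom.ofLinearMap G₀ hone hmul, fun b => ?_, fun h => ?_⟩
  · change PowerSeries.coeff 0 (G₀ b) = b
    rw [hG]
    exact h0 b
  · change G₀ (ι h) = φ h
    ext i
    rw [hG]
    have := (sq_SL hS hΦ i).left h 1
    rw [mul_one, (sq_SL hS hΦ i).one, mul_one] at this
    rw [this]

end General

end

end Vale.P179.H930.S1G
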